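import Vale.Agent.P342.Main
import Vale.Agent.P342.Arc
import Vale.Agent.P325.RepLC
import Vale.Agent.P325.Rep
import Vale.Agent.P325.BasePCP
import Vale.Agent.P325.BaseRound
import Vale.Agent.P325.Pre
import Vale.Agent.P325.Pow
import Vale.Agent.P325.Alph

namespace Vale.Agent.Results.P342.A_full

open Vale.Agent.P325 Vale.Agent.P342

theorem result (c : ℕ) (hc : 3 ≤ c) :
    ∃ (f : CNF → EL) (M : Turing.TM2ComputableInPolyTime codeCNF codeEL f),
      (∀ j, Finite (M.tm.Γ j)) ∧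
      ∀ φ, (∀ e ∈ f φ, e.1 ≠ e.2) ∧ (Sat φ → (graphOf (f φ)).Colorable 3) ∧
        (¬ Sat φ → ¬ (graphOf (f φ)).Colorable c) :=
  final (hard (lc rep (pcp (round pre pow alph)))) c hc

end Vale.Agent.Results.P342.A_full
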